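import Mathlib
import Vale.Agent.Lib.P137.helper41.Defs

/-!
# P137 (helper70, backup copy of pool job 351): a Hardy-type inequality for radial averages

`hardy_of`: the integral of `cavg d F ‖x‖ / ‖x‖` is at most `2 ^ (d + 1)` times the integral of
`F ‖z‖ / ‖z‖`, given the tail estimate `htail` for the weight
`(volume (ball 0 ‖x‖))⁻¹ / ‖x‖` (Tonelli).
-/

namespace Vale.Agent.Lib.P137.H70

open Vale.Agent.Lib.P137 MeasureTheory Metric
open scoped ENNReal

theorem hardy_of {d : ℕ} (hd : 1 ≤ d) (F : ℝ → ℝ≥0∞) (hF : Antitone F)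
    (htail : ∀ a : ℝ, 0 < a → ∫⁻ x in {x : E d | a < ‖x‖},
      (volume (ball (0 : E d) ‖x‖))⁻¹ / ENNReal.ofReal ‖x‖ ≤ 2 ^ (d + 1) / ENNReal.ofReal a) :
    ∫⁻ x : E d, cavg d F ‖x‖ / ENNReal.ofReal ‖x‖ ≤
      2 ^ (d + 1) * ∫⁻ z : E d, F ‖z‖ / ENNReal.ofReal ‖z‖ := by
  classical
  have : Nonempty (Fin d) := ⟨⟨0, hd⟩⟩
  have : Nontrivial (E d) := inferInstance
  obtain ⟨κ, hκ⟩ : ∃ κ : ℝ≥0∞, κ = volume (ball (0 : E d) 1) := ⟨_, rfl⟩
  obtain ⟨w, hw⟩ : ∃ w : E d → ℝ≥0∞,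
      w = fun x => (volume (ball (0 : E d) ‖x‖))⁻¹ / ENNReal.ofReal ‖x‖ := ⟨_, rfl⟩
  have hw_eq : w = fun x => (ENNReal.ofReal (‖x‖ ^ d) * κ)⁻¹ / ENNReal.ofReal ‖x‖ := by
    rw [hw]
    funext x
    rw [Measure.addHaar_ball volume (0 : E d) (norm_nonneg x), finrank_euclideanSpace_fin, hκ]
  have hwm : Measurable w := by
    rw [hw_eq]
    fun_prop
  have hFm : Measurable fun z : E d => F ‖z‖ := hF.measurable.comp measurable_norm
  have h1 : ∀ x : E d, cavg d F ‖x‖ / ENNReal.ofReal ‖x‖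
      = ∫⁻ z, (ball (0 : E d) ‖x‖).indicator (fun z => F ‖z‖) z * w x := by
    intro x
    rw [lintegral_mul_const _ (hFm.indicator measurableSet_ball),
      lintegral_indicator measurableSet_ball, hw]
    simp only [cavg, div_eq_mul_inv, mul_assoc]
  have h2 : ∀ z : E d, ∫⁻ x, (ball (0 : E d) ‖x‖).indicator (fun z => F ‖z‖) z * w x
      ≤ F ‖z‖ * (2 ^ (d + 1) / ENNReal.ofReal ‖z‖) := by
    intro z
    have e : ∀ x : E d, (ball (0 : E d) ‖x‖).indicator (fun z => F ‖z‖) z * w x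
        = {x : E d | ‖z‖ < ‖x‖}.indicator (fun x => F ‖z‖ * w x) x := by
      intro x
      by_cases hx : ‖z‖ < ‖x‖
      · have hz : z ∈ ball (0 : E d) ‖x‖ := mem_ball_zero_iff.2 hx
        have hx' : x ∈ {x : E d | ‖z‖ < ‖x‖} := hx
        rw [Set.indicator_of_mem hz, Set.indicator_of_mem hx']
      · have hz : z ∉ ball (0 : E d) ‖x‖ := fun h => hx (mem_ball_zero_iff.1 h)
        have hx' : x ∉ {x : E d | ‖z‖ < ‖x‖} := hx
        rw [Set.indicator_of_notMem hz, Set.indicator_of_notMem hx', zero_mul]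
    have hS : MeasurableSet {x : E d | ‖z‖ < ‖x‖} :=
      measurableSet_lt measurable_const measurable_norm
    rw [lintegral_congr e, lintegral_indicator hS, lintegral_const_mul _ hwm]
    refine mul_le_mul' le_rfl ?_
    by_cases hz : z = 0
    · rw [hz, norm_zero, ENNReal.ofReal_zero, ENNReal.div_zero (by positivity)]
      exact le_top
    · have := htail ‖z‖ (norm_pos_iff.2 hz)
      rw [hw]
      exact this
  have hmeas : AEMeasurable (Function.uncurry fun (x z : E d) =>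
      (ball (0 : E d) ‖x‖).indicator (fun z => F ‖z‖) z * w x) (volume.prod volume) := by
    have e : (Function.uncurry fun (x z : E d) =>
        (ball (0 : E d) ‖x‖).indicator (fun z => F ‖z‖) z * w x)
        = {p : E d × E d | ‖p.2‖ < ‖p.1‖}.indicator (fun p => F ‖p.2‖ * w p.1) := by
      funext p
      obtain ⟨x, z⟩ := p
      simp only [Function.uncurry_apply_pair]
      by_cases hx : ‖z‖ < ‖x‖
      · have hz : z ∈ ball (0 : E d) ‖x‖ := mem_ball_zero_iff.2 hx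
        have hp : (x, z) ∈ {p : E d × E d | ‖p.2‖ < ‖p.1‖} := hx
        rw [Set.indicator_of_mem hz, Set.indicator_of_mem hp]
      · have hz : z ∉ ball (0 : E d) ‖x‖ := fun h => hx (mem_ball_zero_iff.1 h)
        have hp : (x, z) ∉ {p : E d × E d | ‖p.2‖ < ‖p.1‖} := hx
        rw [Set.indicator_of_notMem hz, Set.indicator_of_notMem hp, zero_mul]
    rw [e]
    have hS : MeasurableSet {p : E d × E d | ‖p.2‖ < ‖p.1‖} :=
      measurableSet_lt (measurable_norm.comp measurable_snd) (measurable_norm.comp measurable_fst)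
    exact (((hFm.comp measurable_snd).mul (hwm.comp measurable_fst)).indicator hS).aemeasurable
  calc ∫⁻ x : E d, cavg d F ‖x‖ / ENNReal.ofReal ‖x‖
      = ∫⁻ x : E d, ∫⁻ z, (ball (0 : E d) ‖x‖).indicator (fun z => F ‖z‖) z * w x :=
        lintegral_congr h1
    _ = ∫⁻ z : E d, ∫⁻ x, (ball (0 : E d) ‖x‖).indicator (fun z => F ‖z‖) z * w x :=
        lintegral_lintegral_swap hmeas
    _ ≤ ∫⁻ z : E d, F ‖z‖ * (2 ^ (d + 1) / ENNReal.ofReal ‖z‖) := lintegral_mono h2
    _ = ∫⁻ z : E d, 2 ^ (d + 1) * (F ‖z‖ / ENNReal.ofReal ‖z‖) := by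
        refine lintegral_congr fun z => ?_
        simp only [div_eq_mul_inv]
        ring
    _ = 2 ^ (d + 1) * ∫⁻ z : E d, F ‖z‖ / ENNReal.ofReal ‖z‖ :=
        lintegral_const_mul' _ _ (by simp)

end Vale.Agent.Lib.P137.H70
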