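import Mathlib
import Vale.Agent.Lib.P137.helper41.Defs

/-!
# P137 (helper70, backup copy of pool job 376 / BR1): the centered maximal function of a
Lipschitz function is Lipschitz (one-sided form in `[0, ∞]`)
-/

namespace Vale.Agent.Lib.P137.H70BR

open Vale.Agent.Lib.P137 MeasureTheory Metric Set Filter
open scoped ENNReal NNReal Topology

theorem cmax_lipschitz {d : ℕ} (g : E d → ℝ) {L : ℝ≥0} (hL : LipschitzWith L g) (x y : E d) :
    cmax (fun z => ENNReal.ofReal (g z)) x ≤
      cmax (fun z => ENNReal.ofReal (g z)) y + ENNReal.ofReal (L * dist x y) := by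
  unfold cmax
  refine iSup₂_le fun r hr => ?_
  have hVx : volume (ball x r) = volume (ball y r) := by
    rw [Measure.addHaar_ball_center, Measure.addHaar_ball_center volume y]
  have hV0 : volume (ball y r) ≠ 0 := (measure_ball_pos volume y hr).ne'
  have hVt : volume (ball y r) ≠ ⊤ := measure_ball_lt_top.ne
  -- translation
  have hpre : (fun z : E d => z + (x - y)) ⁻¹' ball x r = ball y r := by
    ext z
    simp only [mem_preimage, mem_ball, dist_eq_norm]
    have e : z + (x - y) - x = z - y := by abel
    rw [e]
  have htr : ∫⁻ z in ball x r, ENNReal.ofReal (g z)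
      = ∫⁻ z in ball y r, ENNReal.ofReal (g (z + (x - y))) := by
    have h1 := (measurePreserving_add_right (volume : Measure (E d)) (x - y)).setLIntegral_comp_preimage_emb
      (MeasurableEquiv.addRight (x - y)).measurableEmbedding
      (fun z => ENNReal.ofReal (g z)) (ball x r)
    rw [hpre] at h1
    exact h1.symm
  have hpt : ∀ z : E d, ENNReal.ofReal (g (z + (x - y)))
      ≤ ENNReal.ofReal (g z) + ENNReal.ofReal (L * dist x y) := by
    intro z
    have h1 := hL.dist_le_mul (z + (x - y)) z
    have h2 : dist (z + (x - y)) z = dist x y := by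
      rw [dist_eq_norm, dist_eq_norm]
      congr 1
      abel
    rw [h2, Real.dist_eq] at h1
    have h3 : g (z + (x - y)) ≤ g z + L * dist x y := by
      have := le_abs_self (g (z + (x - y)) - g z)
      linarith
    exact (ENNReal.ofReal_le_ofReal h3).trans ENNReal.ofReal_add_le
  have hint : ∫⁻ z in ball x r, ENNReal.ofReal (g z)
      ≤ (∫⁻ z in ball y r, ENNReal.ofReal (g z))
        + ENNReal.ofReal (L * dist x y) * volume (ball y r) := by
    rw [htr]
    calc ∫⁻ z in ball y r, ENNReal.ofReal (g (z + (x - y)))
        ≤ ∫⁻ z in ball y r, (ENNReal.ofReal (g z) + ENNReal.ofReal (L * dist x y)) :=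
          lintegral_mono hpt
      _ = (∫⁻ z in ball y r, ENNReal.ofReal (g z))
            + ENNReal.ofReal (L * dist x y) * volume (ball y r) := by
          rw [lintegral_add_right _ measurable_const, setLIntegral_const]
  calc (∫⁻ z in ball x r, ENNReal.ofReal (g z)) / volume (ball x r)
      ≤ ((∫⁻ z in ball y r, ENNReal.ofReal (g z))
          + ENNReal.ofReal (L * dist x y) * volume (ball y r)) / volume (ball y r) := by
        rw [hVx]
        exact ENNReal.div_le_div_right hint _
    _ = (∫⁻ z in ball y r, ENNReal.ofReal (g z)) / volume (ball y r)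
          + ENNReal.ofReal (L * dist x y) := by
        rw [ENNReal.add_div, ENNReal.mul_div_cancel_right hV0 hVt]
    _ ≤ (⨆ r : ℝ, ⨆ _ : 0 < r, (∫⁻ z in ball y r, ENNReal.ofReal (g z)) / volume (ball y r))
          + ENNReal.ofReal (L * dist x y) := by
        have hsup : (∫⁻ z in ball y r, ENNReal.ofReal (g z)) / volume (ball y r)
            ≤ ⨆ r : ℝ, ⨆ _ : 0 < r,
              (∫⁻ z in ball y r, ENNReal.ofReal (g z)) / volume (ball y r) :=
          le_iSup₂ (f := fun (r : ℝ) (_ : 0 < r) =>
            (∫⁻ z in ball y r, ENNReal.ofReal (g z)) / volume (ball y r)) r hr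
        gcongr

end Vale.Agent.Lib.P137.H70BR
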