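import Mathlib
import Vale.Agent.Lib.P137.Defs

/-!
# P137 (helper70, second copy of pool job 366): polar coordinates for radial integrands

`lintegral_fun_norm`: the integral of `H ‖x‖` over `R^d` is `d |B(0,1)|` times the integral of
`ρ ^ (d - 1) H ρ` over `(0, ∞)`; `lintegral_fun_norm_div`: the same with the weight `‖x‖⁻¹`.
-/

namespace Vale.Agent.Lib.P137.H70

open MeasureTheory

theorem lintegral_fun_norm {d : ℕ} (hd : 1 ≤ d) (H : ℝ → ENNReal) (hH : Measurable H) :
    ∫⁻ x : Sp d, H ‖x‖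
      = (d : ENNReal) * volume (Metric.ball (0 : Sp d) 1) *
          ∫⁻ ρ in Set.Ioi (0 : ℝ), ENNReal.ofReal (ρ ^ (d - 1)) * H ρ := by
  have hne : Nonempty (Fin d) := ⟨⟨0, hd⟩⟩
  have hnt : Nontrivial (Sp d) := inferInstance
  have hdim : Module.finrank ℝ (Sp d) = d := finrank_euclideanSpace_fin
  have hmp := (volume : Measure (Sp d)).measurePreserving_homeomorphUnitSphereProd
  rw [hdim] at hmp
  calc ∫⁻ x : Sp d, H ‖x‖
      = ∫⁻ x : (({0}ᶜ : Set (Sp d))), H ‖x.1‖ ∂((volume : Measure (Sp d)).comap (↑)) := by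
        rw [lintegral_subtype_comap (measurableSet_singleton _).compl fun x => H ‖x‖,
          restrict_compl_singleton]
    _ = ∫⁻ p, H p.2.1
          ∂((volume : Measure (Sp d)).toSphere.prod (Measure.volumeIoiPow (d - 1))) := by
        have h1 := hmp.lintegral_comp_emb (Homeomorph.measurableEmbedding _)
          (fun p => H p.2.1)
        simpa using h1
    _ = (volume : Measure (Sp d)).toSphere Set.univ *
          ∫⁻ r : Set.Ioi (0 : ℝ), H r.1 ∂(Measure.volumeIoiPow (d - 1)) := by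
        rw [lintegral_prod _ (by fun_prop)]
        simp only [lintegral_const]
        rw [mul_comm]
    _ = (d : ENNReal) * volume (Metric.ball (0 : Sp d) 1) *
          ∫⁻ ρ in Set.Ioi (0 : ℝ), ENNReal.ofReal (ρ ^ (d - 1)) * H ρ := by
        rw [Measure.toSphere_apply_univ, hdim, Measure.volumeIoiPow,
          lintegral_withDensity_eq_lintegral_mul _ (by fun_prop) (by fun_prop),
          ← lintegral_subtype_comap measurableSet_Ioi
            fun a => (ENNReal.ofReal (a ^ (d - 1))) * H a]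
        rfl

theorem lintegral_fun_norm_div {d : ℕ} (hd : 2 ≤ d) (K : ℝ → ENNReal) (hK : Measurable K) :
    ∫⁻ x : Sp d, K ‖x‖ * ENNReal.ofReal ‖x‖⁻¹
      = (d : ENNReal) * volume (Metric.ball (0 : Sp d) 1) *
          ∫⁻ ρ in Set.Ioi (0 : ℝ), ENNReal.ofReal (ρ ^ (d - 2)) * K ρ := by
  have h := lintegral_fun_norm (d := d) (by omega) (fun ρ => K ρ * ENNReal.ofReal ρ⁻¹)
    (by fun_prop)
  rw [h]
  congr 1
  refine setLIntegral_congr_fun measurableSet_Ioi ?_
  intro ρ hρ
  have hρ0 : (0 : ℝ) < ρ := hρ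
  have e : ρ ^ (d - 1) = ρ ^ (d - 2) * ρ := by
    rw [← pow_succ]
    congr 1
    omega
  calc ENNReal.ofReal (ρ ^ (d - 1)) * (K ρ * ENNReal.ofReal ρ⁻¹)
      = ENNReal.ofReal (ρ ^ (d - 1)) * ENNReal.ofReal ρ⁻¹ * K ρ := by ring
    _ = ENNReal.ofReal (ρ ^ (d - 1) * ρ⁻¹) * K ρ := by
        rw [ENNReal.ofReal_mul (by positivity)]
    _ = ENNReal.ofReal (ρ ^ (d - 2)) * K ρ := by
        rw [e, mul_assoc, mul_inv_cancel₀ hρ0.ne', mul_one]

end Vale.Agent.Lib.P137.H70
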