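import Mathlib
import Vale.Agent.Lib.P137.helper41.Defs

/-!
# P137 (helper70, pool job 379 / BR4): polar coordinates for radial integrands

`lintegral_fun_norm`: the integral of `g ‖x‖` over `R^d` is `d |B(0,1)|` times the integral of
`ρ ^ (d - 1) g ρ` over `(0, ∞)`.  (Namespace `H70BR`: my file `helper70/Polar.lean` holds the
same fact for the other set of P137 definitions under `H70`.)
-/

namespace Vale.Agent.Lib.P137.H70BR

open Vale.Agent.Lib.P137 MeasureTheory Metric Set Filter
open scoped ENNReal NNReal Topology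

theorem lintegral_fun_norm {d : ℕ} (hd : 1 ≤ d) (g : ℝ → ℝ≥0∞) (hg : Measurable g) :
    ∫⁻ x : E d, g ‖x‖ = (d * volume (ball (0 : E d) 1)) *
      ∫⁻ ρ in Ioi (0 : ℝ), ENNReal.ofReal (ρ ^ (d - 1)) * g ρ := by
  have hne : Nonempty (Fin d) := ⟨⟨0, hd⟩⟩
  have hnt : Nontrivial (E d) := inferInstance
  have hdim : Module.finrank ℝ (E d) = d := finrank_euclideanSpace_fin
  have hmp := (volume : Measure (E d)).measurePreserving_homeomorphUnitSphereProd
  rw [hdim] at hmp
  calc ∫⁻ x : E d, g ‖x‖
      = ∫⁻ x : (({0}ᶜ : Set (E d))), g ‖x.1‖ ∂((volume : Measure (E d)).comap (↑)) := by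
        rw [lintegral_subtype_comap (measurableSet_singleton _).compl fun x => g ‖x‖,
          restrict_compl_singleton]
    _ = ∫⁻ p, g p.2.1
          ∂((volume : Measure (E d)).toSphere.prod (Measure.volumeIoiPow (d - 1))) := by
        have h1 := hmp.lintegral_comp_emb (Homeomorph.measurableEmbedding _)
          (fun p => g p.2.1)
        simpa using h1
    _ = (volume : Measure (E d)).toSphere Set.univ *
          ∫⁻ r : Set.Ioi (0 : ℝ), g r.1 ∂(Measure.volumeIoiPow (d - 1)) := by
        rw [lintegral_prod _ (by fun_prop)]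
        simp only [lintegral_const]
        rw [mul_comm]
    _ = (d * volume (ball (0 : E d) 1)) *
          ∫⁻ ρ in Ioi (0 : ℝ), ENNReal.ofReal (ρ ^ (d - 1)) * g ρ := by
        rw [Measure.toSphere_apply_univ, hdim, Measure.volumeIoiPow,
          lintegral_withDensity_eq_lintegral_mul _ (by fun_prop) (by fun_prop),
          ← lintegral_subtype_comap measurableSet_Ioi
            fun a => (ENNReal.ofReal (a ^ (d - 1))) * g a]
        rfl

end Vale.Agent.Lib.P137.H70BR
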