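import Mathlib
import Vale.Agent.Lib.P137.TVDefs

/-!
# P137 (helper70, second copy of pool job 384 / L2): lower bound for the total variation of a
radially nonincreasing function

`tv_lower_of`: given the radial test fields of job L1 (hypothesis `hfield`), the total variation
of `x ↦ F ‖x‖` is at least `(d - 1) ∫ F ‖x‖ / ‖x‖`.
-/

namespace Vale.Agent.Lib.P137.H70

open MeasureTheory

theorem jL2_div_continuous {d : ℕ} (φ : Sp d → Sp d) (h1 : ContDiff ℝ 1 φ) :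
    Continuous (divergence φ) := by
  have hc : Continuous (fderiv ℝ φ) := h1.continuous_fderiv one_ne_zero
  unfold divergence
  refine continuous_finsetSum _ fun i _ => ?_
  have h2 : Continuous fun x => fderiv ℝ φ x (EuclideanSpace.single i 1) :=
    hc.clm_apply continuous_const
  exact (EuclideanSpace.proj i).continuous.comp h2

theorem jL2_div_bdd {d : ℕ} (φ : Sp d → Sp d) (h1 : ContDiff ℝ 1 φ) (h2 : HasCompactSupport φ) :
    ∃ C : ℝ, ∀ x, ‖divergence φ x‖ ≤ C := by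
  have hcs : HasCompactSupport (divergence φ) := by
    have h3 : HasCompactSupport (fderiv ℝ φ) := h2.fderiv (𝕜 := ℝ)
    have e : divergence φ = (fun L : Sp d →L[ℝ] Sp d =>
        ∑ i : Fin d, (L (EuclideanSpace.single i 1)) i) ∘ fderiv ℝ φ := rfl
    rw [e]
    exact h3.comp_left (by simp)
  exact (jL2_div_continuous φ h1).bounded_above_of_compact_support hcs

theorem jL2_intOn {d : ℕ} (F : ℝ → ℝ) (hFm : Measurable F) (hF0 : ∀ t, 0 ≤ F t)
    (hint : Integrable (fun x : Sp d => F ‖x‖)) (δ R₀ : ℝ) (hδ : 0 < δ) :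
    Integrable ({x : Sp d | δ ≤ ‖x‖ ∧ ‖x‖ ≤ R₀}.indicator fun x : Sp d => F ‖x‖ * ‖x‖⁻¹) := by
  have hfm : Measurable fun x : Sp d => F ‖x‖ := hFm.comp measurable_norm
  have hA : MeasurableSet {x : Sp d | δ ≤ ‖x‖ ∧ ‖x‖ ≤ R₀} :=
    (measurableSet_le measurable_const measurable_norm).inter
      (measurableSet_le measurable_norm measurable_const)
  refine Integrable.mono' (hint.const_mul δ⁻¹) ?_ (Filter.Eventually.of_forall fun x => ?_)
  · exact ((hfm.mul measurable_norm.inv).indicator hA).aestronglyMeasurable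
  · by_cases hx : x ∈ {x : Sp d | δ ≤ ‖x‖ ∧ ‖x‖ ≤ R₀}
    · rw [Set.indicator_of_mem hx, Real.norm_eq_abs,
        abs_of_nonneg (mul_nonneg (hF0 _) (inv_nonneg.2 (norm_nonneg x))), mul_comm]
      exact mul_le_mul_of_nonneg_right (inv_anti₀ hδ hx.1) (hF0 _)
    · rw [Set.indicator_of_notMem hx, norm_zero]
      exact mul_nonneg (inv_nonneg.2 hδ.le) (hF0 _)

theorem jL2_scale (X Y : ℝ) (h : ∀ c : ℝ, 0 ≤ c → c < 1 → c * X ≤ Y) : X ≤ Y := by
  by_contra hlt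
  have hlt' : Y < X := not_le.1 hlt
  have hY : 0 ≤ Y := by
    have h0 := h 0 le_rfl one_pos
    rwa [zero_mul] at h0
  have hXpos : 0 < X := lt_of_le_of_lt hY hlt'
  have hc1 : (Y / X + 1) / 2 < 1 := by
    have h1 : Y / X < 1 := (div_lt_one hXpos).2 hlt'
    linarith
  have hc0 : 0 ≤ (Y / X + 1) / 2 := by positivity
  have h2 := h _ hc0 hc1
  have e : (Y / X + 1) / 2 * X = (Y + X) / 2 := by
    field_simp
  linarith

theorem jL2_core {d : ℕ} (F : ℝ → ℝ) (hFm : Measurable F) (hF0 : ∀ t, 0 ≤ F t)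
    (hint : Integrable (fun x : Sp d => F ‖x‖)) (M δ R₀ R c : ℝ) (hδ : 0 < δ) (hR : R₀ ≤ R)
    (φ : Sp d → Sp d) (h1 : ContDiff ℝ 1 φ) (h2 : HasCompactSupport φ)
    (ha : ∀ x, ‖x‖ ≤ R → 0 ≤ divergence φ x)
    (hb : ∀ x, δ ≤ ‖x‖ → ‖x‖ ≤ R → c * ((d : ℝ) - 1) * ‖x‖⁻¹ ≤ divergence φ x)
    (hc : ∀ x, R < ‖x‖ → -M ≤ divergence φ x) :
    c * ((d : ℝ) - 1) * (∫ x in {x : Sp d | δ ≤ ‖x‖ ∧ ‖x‖ ≤ R₀}, F ‖x‖ * ‖x‖⁻¹)
        - M * (∫ x in {x : Sp d | R < ‖x‖}, F ‖x‖)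
      ≤ ∫ x, F ‖x‖ * divergence φ x := by
  have hfm : Measurable fun x : Sp d => F ‖x‖ := hFm.comp measurable_norm
  have hA : MeasurableSet {x : Sp d | δ ≤ ‖x‖ ∧ ‖x‖ ≤ R₀} :=
    (measurableSet_le measurable_const measurable_norm).inter
      (measurableSet_le measurable_norm measurable_const)
  have hB : MeasurableSet {x : Sp d | R < ‖x‖} := measurableSet_lt measurable_const measurable_norm
  obtain ⟨C, hC⟩ := jL2_div_bdd φ h1 h2
  have hg : Integrable fun x : Sp d => F ‖x‖ * divergence φ x :=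
    hint.mul_bdd (jL2_div_continuous φ h1).aestronglyMeasurable (Filter.Eventually.of_forall hC)
  have hi1 : Integrable
      ({x : Sp d | δ ≤ ‖x‖ ∧ ‖x‖ ≤ R₀}.indicator fun x : Sp d => F ‖x‖ * ‖x‖⁻¹) := by
    refine Integrable.mono' (hint.const_mul δ⁻¹) ?_ (Filter.Eventually.of_forall fun x => ?_)
    · exact ((hfm.mul measurable_norm.inv).indicator hA).aestronglyMeasurable
    · by_cases hx : x ∈ {x : Sp d | δ ≤ ‖x‖ ∧ ‖x‖ ≤ R₀}
      · rw [Set.indicator_of_mem hx, Real.norm_eq_abs,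
          abs_of_nonneg (mul_nonneg (hF0 _) (inv_nonneg.2 (norm_nonneg x))), mul_comm]
        exact mul_le_mul_of_nonneg_right (inv_anti₀ hδ hx.1) (hF0 _)
      · rw [Set.indicator_of_notMem hx, norm_zero]
        exact mul_nonneg (inv_nonneg.2 hδ.le) (hF0 _)
  have hi2 : Integrable ({x : Sp d | R < ‖x‖}.indicator fun x : Sp d => F ‖x‖) :=
    hint.indicator hB
  have hmono : ∀ x : Sp d,
      c * ((d : ℝ) - 1) *
          ({x : Sp d | δ ≤ ‖x‖ ∧ ‖x‖ ≤ R₀}.indicator (fun x : Sp d => F ‖x‖ * ‖x‖⁻¹) x)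
        - M * ({x : Sp d | R < ‖x‖}.indicator (fun x : Sp d => F ‖x‖) x)
      ≤ F ‖x‖ * divergence φ x := by
    intro x
    by_cases hxR : ‖x‖ ≤ R
    · have hnB : x ∉ {x : Sp d | R < ‖x‖} := fun h => absurd hxR (not_le.2 h)
      rw [Set.indicator_of_notMem hnB, mul_zero, sub_zero]
      by_cases hxA : x ∈ {x : Sp d | δ ≤ ‖x‖ ∧ ‖x‖ ≤ R₀}
      · rw [Set.indicator_of_mem hxA]
        have h3 := hb x hxA.1 hxR
        have h4 := mul_le_mul_of_nonneg_left h3 (hF0 ‖x‖)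
        linarith
      · rw [Set.indicator_of_notMem hxA, mul_zero]
        exact mul_nonneg (hF0 _) (ha x hxR)
    · have hxB : x ∈ {x : Sp d | R < ‖x‖} := not_le.1 hxR
      have hnA : x ∉ {x : Sp d | δ ≤ ‖x‖ ∧ ‖x‖ ≤ R₀} := fun h => hxR (h.2.trans hR)
      rw [Set.indicator_of_mem hxB, Set.indicator_of_notMem hnA, mul_zero, zero_sub]
      have h3 := hc x hxB
      have h4 := mul_le_mul_of_nonneg_left h3 (hF0 ‖x‖)
      linarith
  have hint_h : ∫ x : Sp d, (c * ((d : ℝ) - 1) *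
          ({x : Sp d | δ ≤ ‖x‖ ∧ ‖x‖ ≤ R₀}.indicator (fun x : Sp d => F ‖x‖ * ‖x‖⁻¹) x)
        - M * ({x : Sp d | R < ‖x‖}.indicator (fun x : Sp d => F ‖x‖) x))
      ≤ ∫ x, F ‖x‖ * divergence φ x :=
    integral_mono ((hi1.const_mul (c * ((d : ℝ) - 1))).sub (hi2.const_mul M)) hg hmono
  rw [integral_sub (hi1.const_mul _) (hi2.const_mul _), integral_const_mul, integral_const_mul,
    integral_indicator hA, integral_indicator hB] at hint_h
  exact hint_h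

theorem tv_lower_of {d : ℕ} (hd : 2 ≤ d) (F : ℝ → ℝ) (hF : Antitone F) (hF0 : ∀ t, 0 ≤ F t)
    (hint : Integrable (fun x : Sp d => F ‖x‖))
    (hfield : ∃ M : ℝ, 0 ≤ M ∧ ∀ (δ R c : ℝ), 0 < δ → 1 ≤ R → c < 1 →
      ∃ φ : Sp d → Sp d, ContDiff ℝ 1 φ ∧ HasCompactSupport φ ∧ (∀ x, ‖φ x‖ ≤ 1) ∧
        (∀ x, ‖x‖ ≤ R → 0 ≤ divergence φ x) ∧
        (∀ x, δ ≤ ‖x‖ → ‖x‖ ≤ R → c * ((d : ℝ) - 1) * ‖x‖⁻¹ ≤ divergence φ x) ∧
        (∀ x, R < ‖x‖ → -M ≤ divergence φ x)) :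
    ((d - 1 : ℕ) : ENNReal) *
        ∫⁻ x : Sp d, ENNReal.ofReal (F ‖x‖) * ENNReal.ofReal ‖x‖⁻¹
      ≤ totalVar (fun x : Sp d => F ‖x‖) := by
  obtain ⟨M, _hM0, hfld⟩ := hfield
  have hFm : Measurable F := hF.measurable
  have hfm : Measurable fun x : Sp d => F ‖x‖ := hFm.comp measurable_norm
  by_cases hT : totalVar (fun x : Sp d => F ‖x‖) = ⊤
  · rw [hT]
    exact le_top
  obtain ⟨A, hAdef⟩ : ∃ A : ℕ → Set (Sp d),
      A = fun n : ℕ => {x : Sp d | 1 / ((n : ℝ) + 1) ≤ ‖x‖ ∧ ‖x‖ ≤ (n : ℝ) + 1} := ⟨_, rfl⟩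
  have hA : ∀ n, MeasurableSet (A n) := by
    intro n
    rw [hAdef]
    exact (measurableSet_le measurable_const measurable_norm).inter
      (measurableSet_le measurable_norm measurable_const)
  have hd1 : (0 : ℝ) ≤ (d : ℝ) - 1 := by
    have h2 : (2 : ℝ) ≤ d := by exact_mod_cast hd
    linarith
  -- the tail integrals tend to zero
  have htail : Filter.Tendsto (fun k : ℕ => ∫ x in {x : Sp d | (k : ℝ) < ‖x‖}, F ‖x‖)
      Filter.atTop (nhds 0) := by
    have hanti : Antitone (fun k : ℕ => {x : Sp d | (k : ℝ) < ‖x‖}) := by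
      intro k k' hkk' x hx
      simp only [Set.mem_ofPred_eq] at hx ⊢
      exact lt_of_le_of_lt (Nat.cast_le.2 hkk') hx
    have h := tendsto_setIntegral_of_antitone (μ := (volume : Measure (Sp d)))
      (f := fun x : Sp d => F ‖x‖) (s := fun k : ℕ => {x : Sp d | (k : ℝ) < ‖x‖})
      (fun k => measurableSet_lt measurable_const measurable_norm) hanti
      ⟨0, hint.integrableOn⟩
    have hempty : (⋂ k : ℕ, {x : Sp d | (k : ℝ) < ‖x‖}) = ∅ := by
      ext x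
      simp only [Set.mem_iInter, Set.mem_ofPred_eq, Set.mem_empty_iff_false, iff_false,
        not_forall, not_lt]
      exact exists_nat_ge ‖x‖
    rw [hempty, Measure.restrict_empty, integral_zero_measure] at h
    exact h
  -- the key bound on each annulus
  have hkey : ∀ n : ℕ, ((d : ℝ) - 1) * (∫ x in A n, F ‖x‖ * ‖x‖⁻¹)
      ≤ (totalVar (fun x : Sp d => F ‖x‖)).toReal := by
    intro n
    refine jL2_scale _ _ fun c _hc0 hc1 => ?_
    have hk : ∀ k : ℕ, n + 1 ≤ k →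
        c * (((d : ℝ) - 1) * (∫ x in A n, F ‖x‖ * ‖x‖⁻¹))
          ≤ (totalVar (fun x : Sp d => F ‖x‖)).toReal
            + M * (∫ x in {x : Sp d | (k : ℝ) < ‖x‖}, F ‖x‖) := by
      intro k hk
      have hδ : (0 : ℝ) < 1 / ((n : ℝ) + 1) := by positivity
      have hR1 : (1 : ℝ) ≤ (k : ℝ) := by
        have h1 : (1 : ℕ) ≤ k := by omega
        exact_mod_cast h1
      have hR0 : (n : ℝ) + 1 ≤ (k : ℝ) := by exact_mod_cast hk
      obtain ⟨φ, h1, h2, h3, ha, hb, hc⟩ := hfld (1 / ((n : ℝ) + 1)) k c hδ hR1 hc1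
      have hcore := jL2_core F hFm hF0 hint M (1 / ((n : ℝ) + 1)) ((n : ℝ) + 1) k c hδ hR0
        φ h1 h2 ha hb hc
      have hsup : ENNReal.ofReal (∫ x, F ‖x‖ * divergence φ x)
          ≤ totalVar (fun x : Sp d => F ‖x‖) := by
        unfold totalVar
        exact le_iSup₂ (f := fun (φ : Sp d → Sp d)
          (_ : ContDiff ℝ 1 φ ∧ HasCompactSupport φ ∧ ∀ x, ‖φ x‖ ≤ 1) =>
          ENNReal.ofReal (∫ x, F ‖x‖ * divergence φ x)) φ ⟨h1, h2, h3⟩
      have hle : (∫ x, F ‖x‖ * divergence φ x)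
          ≤ (totalVar (fun x : Sp d => F ‖x‖)).toReal :=
        (ENNReal.ofReal_le_iff_le_toReal hT).1 hsup
      rw [hAdef]
      have e : c * (((d : ℝ) - 1) *
            ∫ x in {x : Sp d | 1 / ((n : ℝ) + 1) ≤ ‖x‖ ∧ ‖x‖ ≤ (n : ℝ) + 1}, F ‖x‖ * ‖x‖⁻¹)
          = c * ((d : ℝ) - 1) *
            ∫ x in {x : Sp d | 1 / ((n : ℝ) + 1) ≤ ‖x‖ ∧ ‖x‖ ≤ (n : ℝ) + 1}, F ‖x‖ * ‖x‖⁻¹ := by
        ring
      rw [e]
      linarith
    have hlim : Filter.Tendsto (fun k : ℕ => (totalVar (fun x : Sp d => F ‖x‖)).toReal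
          + M * (∫ x in {x : Sp d | (k : ℝ) < ‖x‖}, F ‖x‖)) Filter.atTop
        (nhds ((totalVar (fun x : Sp d => F ‖x‖)).toReal + M * 0)) :=
      tendsto_const_nhds.add (htail.const_mul M)
    rw [mul_zero, add_zero] at hlim
    exact ge_of_tendsto hlim (Filter.eventually_atTop.2 ⟨n + 1, hk⟩)
  -- monotone convergence over the annuli
  obtain ⟨w, hw⟩ : ∃ w : Sp d → ENNReal,
      w = fun x => ENNReal.ofReal (F ‖x‖) * ENNReal.ofReal ‖x‖⁻¹ := ⟨_, rfl⟩
  have hwm : Measurable w := by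
    rw [hw]
    exact hfm.ennreal_ofReal.mul measurable_norm.inv.ennreal_ofReal
  have hmonoA : Monotone A := by
    intro n m hnm x hx
    rw [hAdef] at hx ⊢
    have hnm' : (n : ℝ) + 1 ≤ (m : ℝ) + 1 := by exact_mod_cast Nat.succ_le_succ hnm
    exact ⟨le_trans (one_div_le_one_div_of_le (by positivity) hnm') hx.1, le_trans hx.2 hnm'⟩
  have hsup : ∫⁻ x, w x ≤ ⨆ n, ∫⁻ x, (A n).indicator w x := by
    rw [← lintegral_iSup (fun n => hwm.indicator (hA n))
      (fun n m hnm x => Set.indicator_le_indicator_of_subset (hmonoA hnm) (fun _ => zero_le) x)]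
    refine lintegral_mono fun x => ?_
    by_cases hx : x = 0
    · rw [hx, hw]
      simp
    · obtain ⟨n, hn⟩ := exists_nat_ge (max ‖x‖ ‖x‖⁻¹)
      have hpos : 0 < ‖x‖ := norm_pos_iff.2 hx
      have hxA : x ∈ A n := by
        rw [hAdef]
        refine ⟨?_, le_trans (le_max_left _ _) (le_trans hn (by linarith))⟩
        have h1 : ‖x‖⁻¹ ≤ (n : ℝ) + 1 :=
          le_trans (le_max_right _ _) (le_trans hn (by linarith))
        rw [one_div]
        exact inv_le_of_inv_le₀ hpos h1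
      refine le_iSup_of_le n ?_
      rw [Set.indicator_of_mem hxA]
  have hIn : ∀ n, ∫⁻ x, (A n).indicator w x
      = ENNReal.ofReal (∫ x in A n, F ‖x‖ * ‖x‖⁻¹) := by
    intro n
    rw [lintegral_indicator (hA n)]
    have hi : IntegrableOn (fun x : Sp d => F ‖x‖ * ‖x‖⁻¹) (A n) := by
      have h1 := jL2_intOn (d := d) F hFm hF0 hint (1 / ((n : ℝ) + 1)) ((n : ℝ) + 1)
        (by positivity)
      have h2 := (integrable_indicator_iff (hA n)).1 (by rw [hAdef]; exact h1)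
      exact h2
    rw [ofReal_integral_eq_lintegral_ofReal hi
      (Filter.Eventually.of_forall fun x => mul_nonneg (hF0 _) (inv_nonneg.2 (norm_nonneg x)))]
    refine lintegral_congr fun x => ?_
    rw [hw, ENNReal.ofReal_mul (hF0 _)]
  have hcast : ((d - 1 : ℕ) : ENNReal) = ENNReal.ofReal ((d : ℝ) - 1) := by
    rw [← ENNReal.ofReal_natCast, Nat.cast_sub (by omega), Nat.cast_one]
  calc ((d - 1 : ℕ) : ENNReal) * ∫⁻ x : Sp d, ENNReal.ofReal (F ‖x‖) * ENNReal.ofReal ‖x‖⁻¹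
      = ((d - 1 : ℕ) : ENNReal) * ∫⁻ x, w x := by rw [hw]
    _ ≤ ((d - 1 : ℕ) : ENNReal) * ⨆ n, ∫⁻ x, (A n).indicator w x :=
        mul_le_mul' le_rfl hsup
    _ = ⨆ n, ((d - 1 : ℕ) : ENNReal) * ∫⁻ x, (A n).indicator w x := ENNReal.mul_iSup _ _
    _ ≤ totalVar (fun x : Sp d => F ‖x‖) := by
        refine iSup_le fun n => ?_
        rw [hIn n, hcast, ← ENNReal.ofReal_mul hd1]
        exact (ENNReal.ofReal_le_iff_le_toReal hT).2 (hkey n)

end Vale.Agent.Lib.P137.H70
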